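import Vale.Agent.P338Z.Pre
import Vale.Agent.P338Z.Gen.Crec
import Vale.Agent.P338Z.Gen.Hg
import Vale.Agent.P338Z.Gen.Fh

/-!
A deterministic multitape Turing machine that multiplies in time `O(n (log n) ^ (1 - 2 ^ (-89)))`.
-/

open Vale.Agent.P338.R2.H898

namespace Vale.Agent.Results.P338.AAPower

open Vale.Agent.P338Z in
theorem result :
    (∃ A : MTM, Multiplies A ∧ ∃ C : ℝ, 0 < C ∧ ∀ n : ℕ, 2 ≤ n →
      (mulTime A n : ℝ) ≤ C * (n * Real.log n ^ (1 - 1 / 2 ^ 89 : ℝ))) ∧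
    ¬ ∀ A : MTM, Multiplies A → ∃ c : ℝ, 0 < c ∧ ∃ N : ℕ, 2 ≤ N ∧ ∀ n : ℕ, N ≤ n →
      c * (n * Real.log n) ≤ mulTime A n :=
  final_of_rows (fun _ hx h => crec_of sq gate frm hx h) (fun _ hm h => hg_of lay pad hm h)
    (fun _ hg h => fh_of nai hg h)

end Vale.Agent.Results.P338.AAPower
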